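import Vale.Agent.P197.Final.Statement

/-!
# The Specht module as a type

The underlying space and action of `specht T`, named so that statements about its tensor square
stay short.
-/

open Equiv

namespace Vale.Agent.P197.Final

open SymChar

variable {n : ℕ}

/-- The space of the Specht module of the tableau `T`. -/
def SpechtModule (T : Fin n → Fin n) : Type := (specht T).toSubmodule

/-- Its addition, that of the group algebra. -/
noncomputable instance instAddCommGroupSpechtModule (T : Fin n → Fin n) :
    AddCommGroup (SpechtModule T) :=
  (specht T).toSubmodule.addCommGroup

/-- Its scalar multiplication, that of the group algebra. -/
noncomputable instance instModuleSpechtModule (T : Fin n → Fin n) : Module ℂ (SpechtModule T) :=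
  (specht T).toSubmodule.module

/-- The action on the Specht module, by left multiplication. -/
noncomputable def spechtAction (T : Fin n → Fin n) :
    Representation ℂ (Perm (Fin n)) (SpechtModule T) :=
  (specht T).toRepresentation

end Vale.Agent.P197.Final
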