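import Vale.Agent.P197.SymChar
import Vale.Agent.P197.Staircase.Partition

/-!
# From Kronecker coefficients to the representation statement

If `g(ρ, ρ, v) > 0` for every partition `v`, then the tensor square of the Specht module of every
tableau of shape `ρ` contains every irreducible complex representation.
-/

open Finset Equiv Representation

namespace Vale.Agent.P197.Final

open SymChar

variable {n : ℕ}

/-- A positive Kronecker coefficient, read on any representation with the same character. -/
lemma exists_injective_of_kronecker_pos {p v : n.Partition} {T : Fin n → Fin n}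
    (hT : IsTableau p T) {W : Type} [AddCommGroup W] [Module ℂ W] [FiniteDimensional ℂ W]
    (σ : Representation ℂ (Perm (Fin n)) W) [σ.IsIrreducible] (hσ : chiP v = σ.character)
    (h : 0 < kronecker p p v) :
    ∃ f : IntertwiningMap σ (tprod (specht T).toRepresentation (specht T).toRepresentation),
      Function.Injective f := by
  set τ := tprod (specht T).toRepresentation (specht T).toRepresentation
  have hne : (Nat.card (Perm (Fin n)) : ℂ) ≠ 0 := by simp [Nat.card_eq_fintype_card]
  have : Invertible (Nat.card (Perm (Fin n)) : ℂ) := invertibleOfNonzero hne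
  have h1 := card_inv_mul_sum_char_mul_char_eq_finrank
    (W := TensorProduct ℂ (specht T).toSubmodule (specht T).toSubmodule) σ τ
  have h2 := card_inv_mul_sum_char_mul_char_eq_finrank
    (W := TensorProduct ℂ (specht (tableau p)).toSubmodule (specht (tableau p)).toSubmodule)
    (spechtRep v)
    (tprod (spechtRep p) (spechtRep p))
  simp only [τ, char_tensor, Pi.mul_apply, specht_character hT, ← hσ] at h1
  simp only [char_tensor, Pi.mul_apply, spechtRep_character] at h2
  have hrank : 0 < Module.finrank ℂ (IntertwiningMap σ τ) := by
    have h3 := h1.symm.trans h2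
    rw [Nat.cast_inj] at h3
    rw [h3]
    exact h
  have : Nontrivial (IntertwiningMap σ τ) := Module.nontrivial_of_finrank_pos hrank
  obtain ⟨f, hf⟩ := exists_ne (0 : IntertwiningMap σ τ)
  exact ⟨f, (IsIrreducible.injective_or_eq_zero (W := TensorProduct ℂ (specht T).toSubmodule
    (specht T).toSubmodule) f).resolve_right hf⟩

/-- **The bridge to the hand-in statement.** -/
theorem saxl_of_kronecker_pos (m : ℕ)
    (h : ∀ v : (tri m).Partition, 0 < kronecker (staircase m) (staircase m) v) :
    (∃ T : Fin (tri m) → Fin (tri m), ∀ i : Fin (tri m), #{x | T x = i} = m - (i : ℕ)) ∧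
      ∀ T : Fin (tri m) → Fin (tri m), (∀ i : Fin (tri m), #{x | T x = i} = m - (i : ℕ)) →
      ∀ (W : Type) [AddCommGroup W] [Module ℂ W] [FiniteDimensional ℂ W]
        (σ : Representation ℂ (Perm (Fin (tri m))) W) [σ.IsIrreducible],
        ∃ f : IntertwiningMap σ (tprod (specht T).toRepresentation (specht T).toRepresentation),
          Function.Injective f := by
  have hiff : ∀ T : Fin (tri m) → Fin (tri m), IsTableau (staircase m) T ↔
      ∀ i : Fin (tri m), #{x | T x = i} = m - (i : ℕ) := fun T => by
    simp only [IsTableau, cnt, row_staircase]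
  refine ⟨?_, fun T hT W _ _ _ σ _ => ?_⟩
  · obtain ⟨T, hT⟩ := exists_isTableau (staircase m)
    exact ⟨T, (hiff T).mp hT⟩
  · obtain ⟨v, hv⟩ := exists_chiP_eq (character_mem_irrSet σ)
    exact exists_injective_of_kronecker_pos ((hiff T).mpr hT) σ hv (h v)

/-- The same, for all `m ≥ 1` at once. -/
theorem saxl_of_forall_kronecker_pos
    (h : ∀ m, 1 ≤ m → ∀ v : (tri m).Partition, 0 < kronecker (staircase m) (staircase m) v)
    (m : ℕ) (hm : 1 ≤ m) :
    (∃ T : Fin (tri m) → Fin (tri m), ∀ i : Fin (tri m), #{x | T x = i} = m - (i : ℕ)) ∧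
      ∀ T : Fin (tri m) → Fin (tri m), (∀ i : Fin (tri m), #{x | T x = i} = m - (i : ℕ)) →
      ∀ (W : Type) [AddCommGroup W] [Module ℂ W] [FiniteDimensional ℂ W]
        (σ : Representation ℂ (Perm (Fin (tri m))) W) [σ.IsIrreducible],
        ∃ f : IntertwiningMap σ (tprod (specht T).toRepresentation (specht T).toRepresentation),
          Function.Injective f :=
  saxl_of_kronecker_pos m (h m hm)

end Vale.Agent.P197.Final
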